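import Vale.Agent.P050.O.H300.Defs
import Vale.Agent.P050.R2.H300.Basic
import Vale.Agent.P050.R2.H928.Expand

set_option linter.all false

/-!
Dense targets, optimal order, S1 (helper928): one step of the exploration, and the start.
-/

open MeasureTheory Finset

namespace Vale.Agent.P050.Opt

open Vale.Agent.P050 Vale.Agent.P050.Dense

namespace H928

section graph

variable {V : Type*} [Fintype V] [DecidableEq V] {Ω : Type*} [MeasurableSpace Ω]
variable (H : SimpleGraph V) [DecidableRel H.Adj]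
variable {U : Sym2 Ω → ℝ} {R : V → Ω → ℝ}

/-- the environment with one more vertex -/
theorem Env_insert {Λ : Finset V} {u : V} (hu : u ∉ Λ) (z : V → Ω) :
    Env H U R (insert u Λ) z = (1 + R u (z u)) *
      (∏ w ∈ H.neighborFinset u ∩ Λ, (1 + U s(z u, z w))) * Env H U R Λ z := by
  unfold Env
  have h1 : H.edgeFinset.filter (fun e => ∀ v ∈ e, v ∈ insert u Λ) =
      (H.neighborFinset u ∩ Λ).image (fun w => s(u, w)) ∪
        H.edgeFinset.filter (fun e => ∀ v ∈ e, v ∈ Λ) := by
    ext e
    induction e with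
    | h a b =>
      simp only [Finset.mem_filter, SimpleGraph.mem_edgeFinset, SimpleGraph.mem_edgeSet,
        Finset.mem_union, Finset.mem_image, Finset.mem_inter, SimpleGraph.mem_neighborFinset,
        Sym2.mem_iff, forall_eq_or_imp, forall_eq, Finset.mem_insert, Sym2.eq_iff]
      constructor
      · rintro ⟨hab, h2, h3⟩
        rcases h2 with rfl | h2
        · rcases h3 with rfl | h3
          · exact absurd hab (H.loopless.irrefl _)
          · exact Or.inl ⟨b, ⟨hab, h3⟩, Or.inl ⟨rfl, rfl⟩⟩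
        · rcases h3 with rfl | h3
          · exact Or.inl ⟨a, ⟨hab.symm, h2⟩, Or.inr ⟨rfl, rfl⟩⟩
          · exact Or.inr ⟨hab, h2, h3⟩
      · rintro (⟨w, ⟨h2, h3⟩, h4⟩ | ⟨hab, h2, h3⟩)
        · rcases h4 with ⟨rfl, rfl⟩ | ⟨rfl, rfl⟩
          · exact ⟨h2, Or.inl rfl, Or.inr h3⟩
          · exact ⟨h2.symm, Or.inr h3, Or.inl rfl⟩
        · exact ⟨hab, Or.inr h2, Or.inr h3⟩
  have h2 : Disjoint ((H.neighborFinset u ∩ Λ).image (fun w => s(u, w)))
      (H.edgeFinset.filter (fun e => ∀ v ∈ e, v ∈ Λ)) := by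
    rw [Finset.disjoint_left]
    intro e he he'
    rw [Finset.mem_image] at he
    obtain ⟨w, -, rfl⟩ := he
    exact hu ((Finset.mem_filter.1 he').2 u (Sym2.mem_mk_left u w))
  rw [h1, Finset.prod_union h2, Finset.prod_insert hu, Finset.prod_image]
  · simp only [Sym2.map_mk]
    ring
  · intro w _ w' _ h
    exact Sym2.congr_right.1 h

/-- the kept factors with one more unexplored vertex -/
theorem Kp_insert_right {X Λ : Finset V} (O : V → Finset V) {u : V} (hu : u ∉ Λ) (z : V → Ω) :
    Kp U X O (insert u Λ) z = Kp U X O Λ z *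
      ∏ x ∈ X.filter (fun x => u ∈ O x), (1 + U s(z x, z u)) := by
  unfold Kp
  rw [Finset.prod_filter, ← Finset.prod_mul_distrib]
  refine Finset.prod_congr rfl fun x _ => ?_
  by_cases h : u ∈ O x
  · have e : O x ∩ insert u Λ = insert u (O x ∩ Λ) := by
      rw [Finset.inter_insert_of_mem h]
    rw [e, Finset.prod_insert (fun h' => hu (Finset.mem_inter.1 h').2), if_pos h, mul_comm]
  · rw [Finset.inter_insert_of_notMem h, if_neg h, mul_one]

/-- the kept factors with one more explored vertex -/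
theorem Kp_insert_left {X Λ S : Finset V} (O : V → Finset V) {u : V} (hu : u ∉ X) (z : V → Ω) :
    Kp U (insert u X) (Function.update O u S) Λ z = Kp U X O Λ z *
      ∏ w ∈ S ∩ Λ, (1 + U s(z u, z w)) := by
  unfold Kp
  rw [Finset.prod_insert hu, Function.update_self, mul_comm]
  congr 1
  refine Finset.prod_congr rfl fun x hx => ?_
  have : x ≠ u := fun h => hu (h ▸ hx)
  rw [Function.update_of_ne this]

/-- all closings -/
theorem sum_cl (S : Finset V) (u : V) (z : V → Ω) :
    ∑ q ∈ S.powerset ×ˢ (univ : Finset Bool), cl U R u q.1 q.2 z =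
      (∏ x ∈ S, (1 + U s(z x, z u))) * (1 + R u (z u)) := by
  rw [Finset.sum_product]
  have e1 : ∀ T ∈ S.powerset, ∑ b : Bool, cl U R u T b z =
      (∏ x ∈ T, U s(z x, z u)) * (1 + R u (z u)) := by
    intro T _
    simp only [cl, Fintype.sum_bool, if_true]
    simp
    ring
  rw [Finset.sum_congr rfl e1, ← Finset.sum_mul, Finset.prod_one_add]

theorem sum_cl_split (X : Finset V) (O : V → Finset V) (u : V) (z : V → Ω) :
    (∏ x ∈ X.filter (fun x => u ∈ O x), (1 + U s(z x, z u))) * (1 + R u (z u)) =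
      1 + ∑ q ∈ Cq X O u, cl U R u q.1 q.2 z := by
  rw [← sum_cl]
  unfold Cq
  rw [Finset.filter_ne', ← Finset.add_sum_erase _ _
    (show ((∅ : Finset V), false) ∈ (X.filter fun x => u ∈ O x).powerset ×ˢ (univ : Finset Bool) by
      simp)]
  simp [cl]

theorem filter_adj (Λ : Finset V) (u : V) :
    Λ.filter (fun w => H.Adj u w) = H.neighborFinset u ∩ Λ := by
  ext w
  simp only [Finset.mem_filter, Finset.mem_inter, SimpleGraph.mem_neighborFinset]
  exact and_comm

theorem prod_nbr (o : V → ℕ) (ho : Function.Injective o) (Λ : Finset V) (u : V) (z : V → Ω) :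
    ∏ w ∈ H.neighborFinset u ∩ Λ, (1 + U s(z u, z w)) =
      1 + ∑ w ∈ Λ.filter (fun w => H.Adj u w), U s(z u, z w) *
        ∏ w' ∈ ((H.neighborFinset u).filter fun w' => o w' < o w) ∩ Λ, (1 + U s(z u, z w')) := by
  rw [prod_one_add_ord o ho _ (fun w => U s(z u, z w)), filter_adj]
  congr 1
  refine Finset.sum_congr rfl fun w _ => ?_
  congr 2
  ext w'
  simp only [Finset.mem_filter, Finset.mem_inter]
  tauto

end graph

section kernel

variable {V : Type*} [Fintype V] [DecidableEq V] {Ω : Type*} [MeasurableSpace Ω]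
variable (H : SimpleGraph V) [DecidableRel H.Adj]
variable {μ : Measure Ω} [IsProbabilityMeasure μ] {U : Sym2 Ω → ℝ} {R : V → Ω → ℝ} {κ η : ℝ}

theorem bm_R (hR : One μ R) (v : V) : BM (fun z : V → Ω => R v (z v)) :=
  (hR.bm v).comp (measurable_pi_apply v)

theorem bm_Env (hU : Ker μ U κ η) (hR : One μ R) (Λ : Finset V) : BM (Env H U R Λ) := by
  unfold Env
  exact (BM.finprod _ fun v _ => (BM.const 1).add (bm_R hR v)).mul
    (BM.finprod _ fun e _ => (BM.const 1).add (hU.good.bm_edge e))

theorem bm_Kp (hU : Ker μ U κ η) (X : Finset V) (O : V → Finset V) (Λ : Finset V) :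
    BM (Kp U X O Λ : (V → Ω) → ℝ) := by
  unfold Kp
  exact BM.finprod _ fun x _ => BM.finprod _ fun w _ => (BM.const 1).add (bm_U hU.good x w)

theorem bm_cl (hU : Ker μ U κ η) (hR : One μ R) (u : V) (S : Finset V) (b : Bool) :
    BM (cl U R u S b : (V → Ω) → ℝ) := by
  unfold cl
  refine (BM.finprod _ fun x _ => bm_U hU.good x u).mul ?_
  cases b
  · simpa using BM.const 1
  · simpa using bm_R hR u

theorem ind_Env {Λ : Finset V} {u : V} (hu : u ∉ Λ) : Ind u (Env H U R Λ) := by
  intro x t
  unfold Env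
  congr 1
  · refine Finset.prod_congr rfl fun v hv => ?_
    have : v ≠ u := fun h => hu (h ▸ hv)
    rw [Function.update_of_ne this]
  · refine Finset.prod_congr rfl fun e he => ?_
    rw [map_update_of_notMem]
    exact fun h => hu ((Finset.mem_filter.1 he).2 u h)

theorem ind_Kp {X Λ : Finset V} {O : V → Finset V} {u : V} (huX : u ∉ X) (hu : u ∉ Λ) :
    Ind u (Kp U X O Λ : (V → Ω) → ℝ) := by
  intro x t
  unfold Kp
  refine Finset.prod_congr rfl fun v hv => Finset.prod_congr rfl fun w hw => ?_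
  have h1 : v ≠ u := fun h => huX (h ▸ hv)
  have h2 : w ≠ u := fun h => hu (h ▸ (Finset.mem_inter.1 hw).2)
  rw [Function.update_of_ne h1, Function.update_of_ne h2]

theorem ind_mul {w : V} {f g : (V → Ω) → ℝ} (hf : Ind w f) (hg : Ind w g) :
    Ind w (fun z => f z * g z) := by
  intro x t
  simp only [hf x t, hg x t]

/-- a one-body function with mean `0` at a vertex which does not occur elsewhere -/
theorem int_one_zero (hR : One μ R) {v : V} {f : (V → Ω) → ℝ} (hf : BM f) (hi : Ind v f) :
    ∫ z, R v (z v) * f z ∂(piM V μ) = 0 := by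
  rw [integral_update μ v ((bm_R hR v).mul hf)]
  have : ∀ x : V → Ω, ∫ y, R v (Function.update x v y v) * f (Function.update x v y) ∂μ = 0 := by
    intro x
    simp only [Function.update_self, hi x]
    rw [integral_mul_const, hR.zero v, zero_mul]
  simp only [this]
  simp

end kernel

end H928

open H928

variable {V : Type*} [Fintype V] [DecidableEq V] {Ω : Type*} [MeasurableSpace Ω]
variable (H : SimpleGraph V) [DecidableRel H.Adj] (o : V → ℕ)
variable (μ : Measure Ω) [IsProbabilityMeasure μ] {U : Sym2 Ω → ℝ} {R : V → Ω → ℝ} {κ η : ℝ}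

/-! ## S1: one step -/

theorem step (ho : Function.Injective o) (hU : Ker μ U κ η) (hR : One μ R) {X Λ : Finset V}
    {O : V → Finset V} {u p : V} {g : (V → Ω) → ℝ} (hg : BM g) (hgu : Ind u g) (hgX : ∀ w ∈ Λ, Ind w g)
    (hp : p ∈ X) (huX : u ∉ X) (huΛ : u ∉ Λ) (hX : Disjoint X Λ) :
    IT H μ U R (fun z => g z * U s(z p, z u)) X O (insert u Λ) =
      ∑ q ∈ Cq X O u, IT H μ U R (fun z => g z * U s(z p, z u) * cl U R u q.1 q.2 z)
        (insert u X) (Function.update O u (H.neighborFinset u)) Λ +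
      ∑ w ∈ Λ.filter (fun w => H.Adj u w),
        IT H μ U R (fun z => g z * U s(z p, z u) * U s(z u, z w)) (insert u X)
          (Function.update O u ((H.neighborFinset u).filter fun w' => o w' < o w)) Λ := by
  have hpu : p ≠ u := fun h => huX (h ▸ hp)
  unfold IT
  have hb1 : ∀ q : Finset V × Bool, BM fun z : V → Ω => g z * U s(z p, z u) *
      cl U R u q.1 q.2 z * Kp U (insert u X) (Function.update O u (H.neighborFinset u)) Λ z *
      Env H U R Λ z := fun q =>
    ((((hg.mul (bm_U hU.good p u)).mul (H928.bm_cl hU hR u q.1 q.2)).mul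
      (H928.bm_Kp hU _ _ _)).mul (H928.bm_Env H hU hR Λ))
  have hb2 : ∀ w : V, BM fun z : V → Ω => g z * U s(z p, z u) * U s(z u, z w) *
      Kp U (insert u X) (Function.update O u ((H.neighborFinset u).filter
        fun w' => o w' < o w)) Λ z * Env H U R Λ z := fun w =>
    ((((hg.mul (bm_U hU.good p u)).mul (bm_U hU.good u w)).mul
      (H928.bm_Kp hU _ _ _)).mul (H928.bm_Env H hU hR Λ))
  have hb3 : BM fun z : V → Ω => g z * (Kp U X O Λ z * Env H U R Λ z) :=
    hg.mul ((H928.bm_Kp hU _ _ _).mul (H928.bm_Env H hU hR Λ))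
  have hi3 : Ind u fun z : V → Ω => g z * (Kp U X O Λ z * Env H U R Λ z) :=
    H928.ind_mul hgu (H928.ind_mul (H928.ind_Kp huX huΛ) (H928.ind_Env H huΛ))
  have hb4 : BM fun z : V → Ω => g z * (Kp U X O Λ z * Env H U R Λ z) * U s(z p, z u) :=
    hb3.mul (bm_U hU.good p u)
  rw [← integral_finset_sum _ fun q _ => (hb1 q).integrable _,
    ← integral_finset_sum _ fun w _ => (hb2 w).integrable _,
    ← integral_add ((BM.finsum _ fun q _ => hb1 q).integrable _)
      ((BM.finsum _ fun w _ => hb2 w).integrable _)]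
  have key : ∀ z : V → Ω, g z * U s(z p, z u) * Kp U X O (insert u Λ) z *
      Env H U R (insert u Λ) z = g z * (Kp U X O Λ z * Env H U R Λ z) * U s(z p, z u) +
      (∑ q ∈ Cq X O u, g z * U s(z p, z u) * cl U R u q.1 q.2 z *
        Kp U (insert u X) (Function.update O u (H.neighborFinset u)) Λ z * Env H U R Λ z +
      ∑ w ∈ Λ.filter (fun w => H.Adj u w), g z * U s(z p, z u) * U s(z u, z w) *
        Kp U (insert u X) (Function.update O u ((H.neighborFinset u).filter
          fun w' => o w' < o w)) Λ z * Env H U R Λ z) := by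
    intro z
    simp only [H928.Kp_insert_left O huX z]
    rw [H928.Kp_insert_right O huΛ z, H928.Env_insert H huΛ z]
    have h1 := H928.sum_cl_split (U := U) (R := R) X O u z
    have h2 := H928.prod_nbr (U := U) H o ho Λ u z
    have e1 : ∑ q ∈ Cq X O u, g z * U s(z p, z u) * cl U R u q.1 q.2 z *
        (Kp U X O Λ z * ∏ w ∈ H.neighborFinset u ∩ Λ, (1 + U s(z u, z w))) * Env H U R Λ z =
        g z * U s(z p, z u) * Kp U X O Λ z * Env H U R Λ z *
          (∏ w ∈ H.neighborFinset u ∩ Λ, (1 + U s(z u, z w))) *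
          ∑ q ∈ Cq X O u, cl U R u q.1 q.2 z := by
      rw [Finset.mul_sum]
      refine Finset.sum_congr rfl fun q _ => ?_
      ring
    have e2 : ∑ w ∈ Λ.filter (fun w => H.Adj u w), g z * U s(z p, z u) * U s(z u, z w) *
        (Kp U X O Λ z * ∏ w' ∈ ((H.neighborFinset u).filter fun w' => o w' < o w) ∩ Λ,
          (1 + U s(z u, z w'))) * Env H U R Λ z =
        g z * U s(z p, z u) * Kp U X O Λ z * Env H U R Λ z *
          ∑ w ∈ Λ.filter (fun w => H.Adj u w), U s(z u, z w) *
            ∏ w' ∈ ((H.neighborFinset u).filter fun w' => o w' < o w) ∩ Λ,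
              (1 + U s(z u, z w')) := by
      rw [Finset.mul_sum]
      refine Finset.sum_congr rfl fun w _ => ?_
      ring
    rw [e1, e2]
    generalize (∑ q ∈ Cq X O u, cl U R u q.1 q.2 z) = C at h1 ⊢
    generalize (∏ x ∈ X.filter (fun x => u ∈ O x), (1 + U s(z x, z u))) = Q at h1 ⊢
    generalize (∑ w ∈ Λ.filter (fun w => H.Adj u w), U s(z u, z w) *
            ∏ w' ∈ ((H.neighborFinset u).filter fun w' => o w' < o w) ∩ Λ,
              (1 + U s(z u, z w'))) = S at h2 ⊢
    generalize (∏ w ∈ H.neighborFinset u ∩ Λ, (1 + U s(z u, z w))) = P at h2 ⊢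
    generalize R u (z u) = r at h1 ⊢
    generalize Kp U X O Λ z = K
    generalize Env H U R Λ z = E
    generalize U s(z p, z u) = a
    generalize g z = b
    linear_combination (b * a * K * E * P) * h1 + (b * a * K * E) * h2
  simp only [key]
  rw [integral_add (hb4.integrable _)
    (((BM.finsum _ fun q _ => hb1 q).add (BM.finsum _ fun w _ => hb2 w)).integrable _)]
  have h0 : ∫ z, g z * (Kp U X O Λ z * Env H U R Λ z) * U s(z p, z u) ∂(piM V μ) = 0 := by
    have h5 : ∀ z : V → Ω, g z * (Kp U X O Λ z * Env H U R Λ z) * U s(z p, z u) =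
        U s(z p, z u) * (g z * (Kp U X O Λ z * Env H U R Λ z)) := fun z => mul_comm _ _
    simp only [h5]
    exact int_edge_zero μ hU hpu hb3 hi3
  rw [h0, zero_add]

/-! ## S5: the first step -/

theorem start (ho : Function.Injective o) (hU : Ker μ U κ η) (hR : One μ R) {v : V}
    {Λ : Finset V} (hv : v ∉ Λ) :
    ZE H μ U R (insert v Λ) - ZE H μ U R Λ = ∑ a ∈ Λ.filter (fun a => H.Adj v a),
      IT H μ U R (fun z => (1 + R v (z v)) * U s(z v, z a)) {v} (O1 H o v a) Λ := by
  unfold ZE IT
  have hb2 : ∀ a : V, BM fun z : V → Ω => (1 + R v (z v)) * U s(z v, z a) *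
      Kp U {v} (O1 H o v a) Λ z * Env H U R Λ z := fun a =>
    (((((BM.const 1).add (H928.bm_R hR v)).mul (bm_U hU.good v a)).mul
      (H928.bm_Kp hU _ _ _)).mul (H928.bm_Env H hU hR Λ))
  have hbE := H928.bm_Env H hU hR Λ
  rw [← integral_finset_sum _ fun q _ => (hb2 q).integrable _]
  have hK : ∀ a : V, ∀ z : V → Ω, Kp U {v} (O1 H o v a) Λ z =
      ∏ w' ∈ ((H.neighborFinset v).filter fun w' => o w' < o a) ∩ Λ, (1 + U s(z v, z w')) := by
    intro a z
    simp only [Kp, O1, Finset.prod_singleton, Function.update_self]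
  have key : ∀ z : V → Ω, Env H U R (insert v Λ) z = Env H U R Λ z +
      (R v (z v) * Env H U R Λ z +
      ∑ a ∈ Λ.filter (fun a => H.Adj v a), (1 + R v (z v)) * U s(z v, z a) *
      Kp U {v} (O1 H o v a) Λ z * Env H U R Λ z) := by
    intro z
    rw [H928.Env_insert H hv z]
    have h2 := H928.prod_nbr (U := U) H o ho Λ v z
    have e2 : ∑ a ∈ Λ.filter (fun a => H.Adj v a), (1 + R v (z v)) * U s(z v, z a) *
        Kp U {v} (O1 H o v a) Λ z * Env H U R Λ z =
        (1 + R v (z v)) * Env H U R Λ z *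
          ∑ w ∈ Λ.filter (fun w => H.Adj v w), U s(z v, z w) *
            ∏ w' ∈ ((H.neighborFinset v).filter fun w' => o w' < o w) ∩ Λ,
              (1 + U s(z v, z w')) := by
      rw [Finset.mul_sum]
      refine Finset.sum_congr rfl fun w _ => ?_
      rw [hK]
      ring
    rw [e2, h2]
    ring
  simp only [key]
  rw [integral_add (hbE.integrable _) ((((H928.bm_R hR v).mul hbE).add
    (BM.finsum _ fun q _ => hb2 q)).integrable _), integral_add
    (((H928.bm_R hR v).mul hbE).integrable _) ((BM.finsum _ fun q _ => hb2 q).integrable _),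
    H928.int_one_zero hR hbE (H928.ind_Env H hv)]
  ring

end Vale.Agent.P050.Opt
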